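import Vale.Agent.P231.Bd3.B6
import Vale.Agent.P231Z.Asm.Main
import Vale.Agent.P231Z.C.Main
import Vale.Agent.P231Z.D.Main

/-! The metric Blaschke conjecture. -/

set_option maxSynthPendingDepth 3

open Bundle Manifold Set
open scoped ContDiff Manifold ENNReal

namespace Vale.Agent.Results.P231.BlaschkeFull

open Vale.Agent.P231.Blaschke Vale.Agent.P231Z

/-- Let `M` be a compact connected Riemannian manifold of dimension `n ≥ 1` and diameter `D`. Its
exponential map exists and is unique. Suppose `inj M ≥ diam M` (so `M` is a Blaschke manifold).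
Then `D > 0` and `M` is isometric to one of the compact rank one symmetric spaces, scaled to the
diameter `D`: there is a distance preserving map onto

* the round sphere `Sⁿ` (the circle if `n = 1`), `d(z, w) = (D / π) arccos ⟨z, w⟩`;
* or `ℝPⁿ`, `d([z], [w]) = (2 D / π) arccos |⟨z, w⟩|`;
* or `ℂPᵏ`, `2 k = n`, `d([z], [w]) = (2 D / π) arccos |∑ z̄ᵢ wᵢ|`;
* or `ℍPᵏ`, `4 k = n`, `d([z], [w]) = (2 D / π) arccos |∑ z̄ᵢ wᵢ|`;
* or the Cayley plane `𝕆P²`, `n = 16`, the set of Hermitian idempotent three by three octonion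
  matrices of trace one, `d(X, Y) = (2 D / π) arccos √(Re tr (X Y*))`.

In the projective cases `z`, `w` are unit vectors, which span the same line if and only if the
modulus of their product is one. -/
theorem result {E : Type*} [NormedAddCommGroup E] [NormedSpace ℝ E] [FiniteDimensional ℝ E]
    {M : Type*} [MetricSpace M] [ChartedSpace E M] [IsManifold 𝓘(ℝ, E) ∞ M]
    [RiemannianBundle (fun x : M => TangentSpace 𝓘(ℝ, E) x)]
    [IsContMDiffRiemannianBundle 𝓘(ℝ, E) ∞ E (fun x : M => TangentSpace 𝓘(ℝ, E) x)]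
    [IsRiemannianManifold 𝓘(ℝ, E) M] [CompactSpace M] [ConnectedSpace M]
    (hdim : 1 ≤ Module.finrank ℝ E) :
    ∃ e : ∀ x : M, TangentSpace 𝓘(ℝ, E) x → M, IsExpMap e ∧
      (∀ e' : ∀ x : M, TangentSpace 𝓘(ℝ, E) x → M, IsExpMap e' → e' = e) ∧
      (InjGeDiam e → 0 < Metric.diam (univ : Set M) ∧
        ((∃ Z : M → EuclideanSpace ℝ (Fin (Module.finrank ℝ E + 1)), (∀ x, ‖Z x‖ = 1) ∧
          (∀ x y, dist x y = Metric.diam (univ : Set M) / Real.pi *
            Real.arccos (inner ℝ (Z x) (Z y))) ∧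
          ∀ z, ‖z‖ = 1 → ∃ x, Z x = z) ∨
        (∃ Z : M → EuclideanSpace ℝ (Fin (Module.finrank ℝ E + 1)), (∀ x, ‖Z x‖ = 1) ∧
          (∀ x y, dist x y = 2 * Metric.diam (univ : Set M) / Real.pi *
            Real.arccos |(inner ℝ (Z x) (Z y) : ℝ)|) ∧
          ∀ z, ‖z‖ = 1 → ∃ x, |(inner ℝ (Z x) z : ℝ)| = 1) ∨
        (∃ n : ℕ, 2 * n = Module.finrank ℝ E ∧ ∃ Z : M → Fin (n + 1) → ℂ,
          (∀ x, ∑ i, ‖Z x i‖ ^ 2 = 1) ∧
          (∀ x y, dist x y = 2 * Metric.diam (univ : Set M) / Real.pi *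
            Real.arccos ‖∑ i, starRingEnd ℂ (Z x i) * Z y i‖) ∧
          ∀ z : Fin (n + 1) → ℂ, ∑ i, ‖z i‖ ^ 2 = 1 →
            ∃ x, ‖∑ i, starRingEnd ℂ (Z x i) * z i‖ = 1) ∨
        (∃ n : ℕ, 4 * n = Module.finrank ℝ E ∧ ∃ Z : M → Fin (n + 1) → Quaternion ℝ,
          (∀ x, ∑ i, ‖Z x i‖ ^ 2 = 1) ∧
          (∀ x y, dist x y = 2 * Metric.diam (univ : Set M) / Real.pi *
            Real.arccos ‖∑ i, star (Z x i) * Z y i‖) ∧
          ∀ z : Fin (n + 1) → Quaternion ℝ, ∑ i, ‖z i‖ ^ 2 = 1 →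
            ∃ x, ‖∑ i, star (Z x i) * z i‖ = 1) ∨
        (Module.finrank ℝ E = 16 ∧ ∃ Z : M → Alb, (∀ x, Ver (Z x)) ∧
          (∀ x y, dist x y = 2 * Metric.diam (univ : Set M) / Real.pi *
            Real.arccos (√(ipA (Z x) (Z y)))) ∧
          ∀ X, Ver X → ∃ x, Z x = X))) := by
  obtain ⟨e, he, hu, -⟩ := Vale.Agent.P234.main_unconditional (E := E) (M := M)
  obtain ⟨x₀⟩ : Nonempty M := inferInstance
  exact ⟨e, (Vale.Agent.P231.isExpMap_iff e).2 he,
    fun e' he' => hu e' ((Vale.Agent.P231.isExpMap_iff e').1 he'), fun hinj =>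
      ⟨Vale.Agent.P231.diam_pos he (N := Module.finrank ℝ E - 1) (by omega) x₀,
        Fin.main_of he hinj hdim (C.volLe_sph e) (C.volLe_proj e) Asm.volLe_seven D.cls⟩⟩

end Vale.Agent.Results.P231.BlaschkeFull
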