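import Vale.Agent.P231.Bd3.B6
import Vale.Agent.P231Z.Alg.Main
import Vale.Agent.P231Z.Asm.MainOf

/-! The metric Blaschke conjecture for the Cayley plane, and so for all three families of models
`ℂPⁿ`, `ℍPⁿ`, `𝕆P²`. -/

set_option maxSynthPendingDepth 3

open Bundle Manifold Set
open scoped ContDiff Manifold ENNReal

namespace Vale.Agent.Results.P231.BlaschkeOpenModels

open Vale.Agent.P231.Blaschke Vale.Agent.P231Z

/-- Let `M` be a compact connected Riemannian manifold. Its exponential map exists and is unique.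
Suppose `inj M ≥ diam M` (so `M` is a Blaschke manifold).

If `dim M = 16` and the largest multiplicity of a cut point is seven (the model is the Cayley
plane), then `M` is isometric to `𝕆P²`, the set of Hermitian idempotent three by three octonion
matrices of trace one with the distance `d(X, Y) = (2 diam M / π) arccos √(Re tr (X Y*))`: the map
`Z` preserves distances and is onto.

If `dim M ≥ 3` and the largest multiplicity is one, then `M` is isometric to `ℂPⁿ`; if
`dim M ≥ 5` and the largest multiplicity is three, then `M` is isometric to `ℍPⁿ`. -/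
theorem result {E : Type*} [NormedAddCommGroup E] [NormedSpace ℝ E] [FiniteDimensional ℝ E]
    {M : Type*} [MetricSpace M] [ChartedSpace E M] [IsManifold 𝓘(ℝ, E) ∞ M]
    [RiemannianBundle (fun x : M => TangentSpace 𝓘(ℝ, E) x)]
    [IsContMDiffRiemannianBundle 𝓘(ℝ, E) ∞ E (fun x : M => TangentSpace 𝓘(ℝ, E) x)]
    [IsRiemannianManifold 𝓘(ℝ, E) M] [CompactSpace M] [ConnectedSpace M] :
    ∃ e : ∀ x : M, TangentSpace 𝓘(ℝ, E) x → M, IsExpMap e ∧
      (∀ e' : ∀ x : M, TangentSpace 𝓘(ℝ, E) x → M, IsExpMap e' → e' = e) ∧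
      (InjGeDiam e → IsLeast {l : ℕ | MultLE e l} 7 → Module.finrank ℝ E = 16 →
        ∃ Z : M → Alb, (∀ x, Ver (Z x)) ∧
          (∀ x y, dist x y = 2 * Metric.diam (univ : Set M) / Real.pi *
            Real.arccos (√(ipA (Z x) (Z y)))) ∧
          ∀ X, Ver X → ∃ x, Z x = X) ∧
      (InjGeDiam e → IsLeast {l : ℕ | MultLE e l} 1 → 3 ≤ Module.finrank ℝ E →
        ∃ n : ℕ, 2 * n = Module.finrank ℝ E ∧ ∃ Z : M → Fin (n + 1) → ℂ,
          (∀ x, ∑ i, ‖Z x i‖ ^ 2 = 1) ∧
          (∀ x y, dist x y = 2 * Metric.diam (univ : Set M) / Real.pi *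
            Real.arccos ‖∑ i, starRingEnd ℂ (Z x i) * Z y i‖) ∧
          ∀ z : Fin (n + 1) → ℂ, ∑ i, ‖z i‖ ^ 2 = 1 →
            ∃ x, ‖∑ i, starRingEnd ℂ (Z x i) * z i‖ = 1) ∧
      (InjGeDiam e → IsLeast {l : ℕ | MultLE e l} 3 → 5 ≤ Module.finrank ℝ E →
        ∃ n : ℕ, 4 * n = Module.finrank ℝ E ∧ ∃ Z : M → Fin (n + 1) → Quaternion ℝ,
          (∀ x, ∑ i, ‖Z x i‖ ^ 2 = 1) ∧
          (∀ x y, dist x y = 2 * Metric.diam (univ : Set M) / Real.pi *
            Real.arccos ‖∑ i, star (Z x i) * Z y i‖) ∧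
          ∀ z : Fin (n + 1) → Quaternion ℝ, ∑ i, ‖z i‖ ^ 2 = 1 →
            ∃ x, ‖∑ i, star (Z x i) * z i‖ = 1) := by
  obtain ⟨e, he, hu, -⟩ := Vale.Agent.P234.main_unconditional (E := E) (M := M)
  refine ⟨e, (Vale.Agent.P231.isExpMap_iff e).2 he,
    fun e' he' => hu e' ((Vale.Agent.P231.isExpMap_iff e').1 he'), fun hinj hl hdim => ?_,
    fun hinj hl hdim => ?_, fun hinj hl hdim => ?_⟩
  · exact Fin.op2_of he hinj hdim hl (Asm.volLe_seven_of fun D _ dS _ _ S hU hB L G _ _ _ hρ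
      hrel _ hε _ hl ha hv => Alg.main S hU hB L G hρ hrel hε hl ha hv)
  · exact Vale.Agent.P231.H512.main_fs' he hinj hdim hl
  · exact Vale.Agent.P231.QF.main_hp he hinj hdim hl

end Vale.Agent.Results.P231.BlaschkeOpenModels
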